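import Vale.Agent.P158.Tube.Main

/-! First-passage percolation on `ℤ²`: geodesic rays leave every logarithmic tube around every line. -/

namespace Vale.Agent.Results.P158.LogTubes

open MeasureTheory Filter Vale.Agent.P158.Tube

/-- For every atomless law there is `c > 0` such that almost surely every geodesic ray is, infinitely
often, at distance more than `c log |z|` from each line, and no bigeodesic stays in a strip. -/
theorem result (G : Measure ℝ) [IsProbabilityMeasure G] [NullSingletonClass G]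
    (h0 : G (Set.Iio 0) = 0) :
    ∃ c : ℝ, 0 < c ∧ ∀ᵐ ω ∂(Measure.infinitePi fun _ : Sym2 (ℤ × ℤ) => G),
      (∀ γ, IsRay ω γ → ∀ α β κ : ℝ, α ^ 2 + β ^ 2 = 1 →
        ∃ᶠ i in atTop, c * Real.log (2 + |((γ i).1 : ℝ)| + |((γ i).2 : ℝ)|) <
          |α * (γ i).1 + β * (γ i).2 - κ|) ∧
      ∀ γ, IsBigeodesic ω γ → ∀ α β κ W : ℝ, α ^ 2 + β ^ 2 = 1 →
        ∃ i : ℤ, W < |α * (γ i).1 + β * (γ i).2 - κ| :=
  main G h0

end Vale.Agent.Results.P158.LogTubes
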