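import Vale.Agent.P158.Power.Main

/-! First-passage percolation on `ℤ²`: geodesic rays leave every power-law tube around every line. -/

namespace Vale.Agent.Results.P158.PowerTubes

open MeasureTheory Filter Vale.Agent.P158.Tube
open scoped ENNReal

/-- If the atomless weight law has a finite moment of order `a ≤ 1`, almost surely every geodesic ray
is infinitely often at distance more than `c (|z| / log |z|) ^ (a / (a + 2))` from each line, and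
every bigeodesic is so at both ends. -/
theorem result (G : Measure ℝ) [IsProbabilityMeasure G] [NullSingletonClass G]
    (h0 : G (Set.Iio 0) = 0) {a : ℝ} (ha : 0 < a) (ha1 : a ≤ 1)
    (hint : ∫⁻ x, ENNReal.ofReal (x ^ a) ∂G ≠ ∞) :
    ∃ c : ℝ, 0 < c ∧ ∀ᵐ ω ∂(Measure.infinitePi fun _ : Sym2 (ℤ × ℤ) => G),
      (∀ γ, IsRay ω γ → ∀ α β κ : ℝ, α ^ 2 + β ^ 2 = 1 →
        ∃ᶠ i in atTop, c * ((2 + |((γ i).1 : ℝ)| + |((γ i).2 : ℝ)|) /
            Real.log (2 + |((γ i).1 : ℝ)| + |((γ i).2 : ℝ)|)) ^ (a / (a + 2)) <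
          |α * (γ i).1 + β * (γ i).2 - κ|) ∧
      ∀ γ, IsBigeodesic ω γ → ∀ α β κ : ℝ, α ^ 2 + β ^ 2 = 1 → ∀ N : ℕ,
        (∃ i : ℤ, (N : ℤ) ≤ i ∧ c * ((2 + |((γ i).1 : ℝ)| + |((γ i).2 : ℝ)|) /
            Real.log (2 + |((γ i).1 : ℝ)| + |((γ i).2 : ℝ)|)) ^ (a / (a + 2)) <
          |α * (γ i).1 + β * (γ i).2 - κ|) ∧
        ∃ i : ℤ, i ≤ -(N : ℤ) ∧ c * ((2 + |((γ i).1 : ℝ)| + |((γ i).2 : ℝ)|) /
            Real.log (2 + |((γ i).1 : ℝ)| + |((γ i).2 : ℝ)|)) ^ (a / (a + 2)) <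
          |α * (γ i).1 + β * (γ i).2 - κ| :=
  Vale.Agent.P158.Power.main G h0 ha ha1 hint

end Vale.Agent.Results.P158.PowerTubes
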